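import Vale.Agent.Lib.P165.Fuzz

namespace Vale.Agent.Results.P165.A_all_fuzz

/-- Let `G` be an infinite, connected, locally finite, vertex-transitive graph whose
vertex-isoperimetric constant is positive. For all large `k`, the `k`-fuzz of `G` (the graph on
the same vertices in which two distinct vertices are adjacent when they are joined by a walk of
`G` of length at most `k`) satisfies `p_c < p_u`. -/
theorem result {V : Type*} (G : SimpleGraph V) [G.LocallyFinite] [Infinite V]
    (hconn : G.Connected) (htrans : ∀ x y, ∃ φ : G ≃g G, φ x = y)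
    (hna : ∃ h : ℝ, 0 < h ∧ ∀ A : Finset V, A.Nonempty →
      h * (A.card : ℝ) ≤ ((Vale.Agent.Lib.P165.vertexBoundary G A).card : ℝ)) :
    ∃ k₀ : ℕ, ∀ k, k₀ ≤ k →
      Vale.Agent.Lib.P165.pc (Vale.Agent.Lib.P165.fuzz G k) <
        Vale.Agent.Lib.P165.pu (Vale.Agent.Lib.P165.fuzz G k) :=
  Vale.Agent.Lib.P165.fuzz_pc_lt_pu hconn htrans hna

end Vale.Agent.Results.P165.A_all_fuzz
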