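import Vale.Agent.Lib.P165.Main

namespace Vale.Agent.Results.P165.A_large_degree

/-- If a vertex-transitive `d`-regular graph has adjacency norm at most `ρ d` with
`1/2 ≤ ρ < 1` and `15 ≤ d (1 - ρ)^3`, then `p_c < p_u`. -/
theorem result {V : Type*} (G : SimpleGraph V) [G.LocallyFinite] [Infinite V]
    (hconn : G.Connected) (htrans : ∀ x y, ∃ φ : G ≃g G, φ x = y)
    (d : ℕ) (hd : G.IsRegularOfDegree d) (ρ : ℝ) (hρ : 1 / 2 ≤ ρ) (hρ1 : ρ < 1)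
    (hnorm : ∀ f : V →₀ ℝ,
      ∑' x, (∑ y ∈ G.neighborFinset x, f y) ^ 2 ≤ (ρ * d) ^ 2 * ∑' x, f x ^ 2)
    (hdeg : 15 ≤ (d : ℝ) * (1 - ρ) ^ 3) :
    Vale.Agent.Lib.P165.pc G < Vale.Agent.Lib.P165.pu G := by
  obtain ⟨h1, h2⟩ := Vale.Agent.Lib.P165.pc_lt_pu_explicit hconn htrans hd hρ hρ1 hnorm hdeg
  exact lt_of_lt_of_le h1 h2

end Vale.Agent.Results.P165.A_large_degree
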